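import Vale.Agent.P207.N4.Dim
import Vale.Agent.P207.N4.H460.MF0
import Vale.Agent.P207.N4.H465.XMet
import Vale.Agent.P207.N4.H566.Lift
import Vale.Agent.P207.N4.H908.Fiber

/-!
# P207, line N3, row R16: the elementary metric facts of the model

Over `Xt g h p` (465's metric): the lifts of the horizontal flows and `rotE` are Lipschitz, the
entries of the matrix of an isometry of the space against the operator norm.
-/

open scoped Manifold ContDiff ENNReal Topology unitInterval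
open Bundle MeasureTheory Set Filter Topology Metric

noncomputable section

set_option maxSynthPendingDepth 3
set_option linter.unusedSectionVars false

namespace Vale.Agent.P207.N4.H460

open Vale.Agent.P207.N3 Vale.Agent.P207.N3.H460

variable [Dim]

open Vale.Agent.P255 (RMetric Npc)
open Vale.Agent.P207.N4.Q Vale.Agent.P207.Q Vale.Agent.P207.Q.Fl
open Vale.Agent.P207.N4.H465 Vale.Agent.P207.N3.H465 Vale.Agent.P207.N4.H566 Vale.Agent.P207.N3.H566 Vale.Agent.P207.N4.H908 Vale.Agent.P207.N3.H908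
open Vale.Agent.P207.N4.H76 Vale.Agent.P207.N3.H76

/-! ### matrices -/

theorem norm_single_one (j : Fin (Dim.m + 1)) : ‖(EuclideanSpace.single j (1 : ℝ) : E3)‖ = 1 := by
  simp

theorem entry_eq (A : O3) (i j : Fin (Dim.m + 1)) : (mo A).1 i j - (1 : Matrix (Fin (Dim.m + 1)) (Fin (Dim.m + 1)) ℝ) i j =
    (A (EuclideanSpace.single j 1) - EuclideanSpace.single j 1 : E3) i := by
  rw [mo_val, Matrix.one_apply]
  simp

theorem entry_le (A : O3) (i j : Fin (Dim.m + 1)) :
    |(mo A).1 i j - (1 : Matrix (Fin (Dim.m + 1)) (Fin (Dim.m + 1)) ℝ) i j| ≤ ‖op3 A - op3 1‖ := by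
  rw [entry_eq]
  have h := norm_sub_le A (EuclideanSpace.single j (1 : ℝ))
  rw [norm_single_one, mul_one] at h
  refine le_trans ?_ h
  rw [← Real.norm_eq_abs]
  exact PiLp.norm_apply_le _ i

theorem op3_le {A : O3} {c : ℝ} (hc : 0 ≤ c)
    (h : ∀ i j, |(mo A).1 i j - (1 : Matrix (Fin (Dim.m + 1)) (Fin (Dim.m + 1)) ℝ) i j| ≤ c) :
    ‖op3 A - op3 1‖ ≤ ((Dim.m : ℝ) + 1) ^ 2 * c := by
  have h1 : ∀ w : E3, ‖w‖ ≤ ∑ i, |w i| := by
    intro w
    have h2 : w = ∑ i, w i • (EuclideanSpace.single i (1 : ℝ) : E3) := by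
      ext k
      simp [Pi.single_apply]
    calc ‖w‖ = ‖∑ i, w i • (EuclideanSpace.single i (1 : ℝ) : E3)‖ := by rw [← h2]
      _ ≤ ∑ i, ‖w i • (EuclideanSpace.single i (1 : ℝ) : E3)‖ := norm_sum_le _ _
      _ = ∑ i, |w i| := by
          refine Finset.sum_congr rfl fun i _ => ?_
          rw [norm_smul, norm_single_one, mul_one, Real.norm_eq_abs]
  have h3 : ∀ j, ‖A (EuclideanSpace.single j (1 : ℝ)) - EuclideanSpace.single j 1‖ ≤ ((Dim.m : ℝ) + 1) * c := by
    intro j
    refine (h1 _).trans ?_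
    have h4 : ∀ i ∈ (Finset.univ : Finset (Fin (Dim.m + 1))),
        |(A (EuclideanSpace.single j 1) - EuclideanSpace.single j 1 : E3) i| ≤ c := fun i _ => by
      rw [← entry_eq]
      exact h i j
    refine (Finset.sum_le_sum h4).trans (le_of_eq ?_)
    rw [Finset.sum_const, Finset.card_univ, Fintype.card_fin, nsmul_eq_mul]
    push_cast
    ring
  refine norm_op3_le (by positivity) fun u => ?_
  have h5 : A u - u = ∑ j, u j • (A (EuclideanSpace.single j (1 : ℝ)) -
      EuclideanSpace.single j 1) := by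
    have h6 : u = ∑ j, u j • (EuclideanSpace.single j (1 : ℝ) : E3) := by
      ext k
      simp [Pi.single_apply]
    conv_lhs => rw [h6]
    rw [map_sum, ← Finset.sum_sub_distrib]
    refine Finset.sum_congr rfl fun j _ => ?_
    rw [map_smul, smul_sub]
  rw [h5]
  refine (norm_sum_le _ _).trans ?_
  have h7 : ∀ j ∈ (Finset.univ : Finset (Fin (Dim.m + 1))), ‖u j • (A (EuclideanSpace.single j (1 : ℝ)) -
      EuclideanSpace.single j 1)‖ ≤ ‖u‖ * (((Dim.m : ℝ) + 1) * c) := fun j _ => by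
    rw [norm_smul]
    exact mul_le_mul (PiLp.norm_apply_le _ j) (h3 j) (norm_nonneg _) (norm_nonneg _)
  refine (Finset.sum_le_sum h7).trans (le_of_eq ?_)
  rw [Finset.sum_const, Finset.card_univ, Fintype.card_fin, nsmul_eq_mul]
  push_cast
  ring

/-! ### the flows -/

variable {M : Type} [TopologicalSpace M] [ChartedSpace (EV (Dim.m + 1)) M]
  [IsManifold 𝓘(ℝ, EV (Dim.m + 1)) ∞ M] [CompactSpace M] [T2Space M] {g : RMetric (EV (Dim.m + 1)) M}
  {h : Npc (mt g)} {p : M}

theorem rotE_lip : ∃ C : ℝ, 0 < C ∧ ∀ (A : O3) (x y : Xt g h p),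
    dist (rotE A x) (rotE A y) ≤ C * dist x y := by
  obtain ⟨C, hC, H⟩ := Xt.exists_rot_lip (g := g) (h := h) (p := p)
  exact ⟨C, hC, fun A x y => H (mo A) x y⟩

variable [Nonempty (Fr g)] [PreconnectedSpace M]

theorem exists_lift_lip (hp : IsCoveringMap ((sys g h).e p)) (ξ : Fin (Dim.m + 1) → ℝ) (T : ℝ) :
    ∃ C : ℝ, 0 < C ∧ ∀ t, |t| ≤ T → ∀ x y : Xt g h p,
      dist (lift hp (t • ξ) x) (lift hp (t • ξ) y) ≤ C * dist x y :=
  Xt.exists_lift_lip (isHorFlow_hflow g ξ).isFlow (Φ := fun t x => lift hp (t • ξ) x)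
    (fun x => continuous_lift_smul hp ξ x) (fun x => by rw [zero_smul, lift_zero])
    (fun t x => f_lift hp _ x) T

theorem exists_lift_speed (hp : IsCoveringMap ((sys g h).e p)) (ξ : Fin (Dim.m + 1) → ℝ) :
    ∃ C : ℝ, 0 < C ∧ ∀ s t, ∀ x : Xt g h p,
      dist (lift hp (s • ξ) x) (lift hp (t • ξ) x) ≤ C * |s - t| :=
  Xt.exists_lift_speed (isHorFlow_hflow g ξ).isFlow (Φ := fun t x => lift hp (t • ξ) x)
    (fun x => continuous_lift_smul hp ξ x) (fun t x => f_lift hp _ x)

end Vale.Agent.P207.N4.H460
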